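import Vale.Agent.P354CB.Ez

/-!
A future timelike curve through a chain of points.
-/

open Set Filter Topology

namespace Vale.Agent.P354CB92

open Vale.Agent.P354n Vale.Agent.P354CB

/-- One more point. -/
theorem chain_step (B : B0) (C : CORNER) {M : Spc} (h : St M) {a s t : ℝ} {w : ℝ → M.pt}
    {p : M.pt} (as : a < s) (st : s < t) (hw : Cv M (Icc a s) w) (k : LL M (w s) p) :
    ∃ w', Cv M (Icc a t) w' ∧ EqOn w' w (Icc a s) ∧ w' t = p := by
  obtain ⟨c, hc, c0, rfl⟩ := k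
  have l : 0 < t - s := sub_pos.2 st
  have e : ∀ x : ℝ, -s / (t - s) + x * (t - s)⁻¹ = (x - s) / (t - s) := fun x => by ring
  obtain ⟨w', a1, a2, a3⟩ := C M h a s t w (fun x => c (-s / (t - s) + x * (t - s)⁻¹)) as st hw
    (B.aff h (inv_pos.2 l) (uniqueDiffOn_Icc st) (I := Icc 0 1) (fun x hx => by
      simp only [e]
      exact ⟨div_nonneg (sub_nonneg.2 hx.1) l.le, (div_le_one l).2 (by linarith [hx.2])⟩) hc)
    (by simp only [e, sub_self, zero_div, c0])
  exact ⟨w', a1, a2, by simp only [a3, e, div_self l.ne']⟩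

theorem chain (B : B0) (C : CORNER) : CHAIN := by
  intro M h a b u q hab hu q0 hq
  set τ : ℕ → ℝ := fun n => b + 1 - (1 / 2) ^ n with hτ
  have mono : StrictMono τ := fun m n k => by
    have := pow_lt_pow_right_of_lt_one₀ (a := (1 / 2 : ℝ)) (by norm_num) (by norm_num) k
    simp only [hτ]
    linarith
  have τ0 : τ 0 = b := by simp [hτ]
  have aτ : ∀ n, a < τ n := fun n => hab.trans_le (τ0 ▸ mono.monotone (Nat.zero_le n))
  have τb : ∀ n, τ n < b + 1 := fun n => sub_lt_self _ (by positivity)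
  have big : ∀ t, t < b + 1 → ∃ n, t < τ n := fun t ht => by
    obtain ⟨n, hn⟩ := exists_pow_lt_of_lt_one (sub_pos.2 ht) (show (1 / 2 : ℝ) < 1 by norm_num)
    exact ⟨n, by simp only [hτ]; linarith⟩
  let P : ℕ → (ℝ → M.pt) → Prop := fun n w => Cv M (Icc a (τ n)) w ∧ w (τ n) = q n
  have st : ∀ n (w : {w // P n w}), ∃ w' : {w // P (n + 1) w}, EqOn w'.1 w.1 (Icc a (τ n)) :=
    fun n w => by
      obtain ⟨w', a1, a2, a3⟩ := chain_step B C h (aτ n) (mono n.lt_succ_self) w.2.1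
        (w.2.2 ▸ hq n)
      exact ⟨⟨w', a1, a3⟩, a2⟩
  choose f hf using st
  let W : ∀ n, {w // P n w} := fun n => Nat.rec ⟨u, by rw [τ0]; exact hu, by rw [τ0, q0]⟩ f n
  have up : ∀ n m, n ≤ m → EqOn (W m).1 (W n).1 (Icc a (τ n)) := fun n m k => by
    induction k with
    | refl => exact fun _ _ => rfl
    | step k ih => exact fun t ht => (hf _ _ ⟨ht.1, ht.2.trans (mono.monotone k)⟩).trans (ih ht)
  choose! N hN using big
  have key : ∀ n, EqOn (fun t => (W (N t)).1 t) (W n).1 (Icc a (τ n)) := fun n t ht =>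
    (up _ _ (le_max_left (N t) n) ⟨ht.1, (hN t (ht.2.trans_lt (τb n))).le⟩).symm.trans
      (up _ _ (le_max_right (N t) n) ht)
  refine ⟨fun t => (W (N t)).1 t, B.loc fun t ht => ⟨Icc a (τ (N t)), (W (N t)).1,
    mem_nhdsWithin.2 ⟨Iio (τ (N t)), isOpen_Iio, hN t ht.2, fun _ m => ⟨m.2.1, le_of_lt m.1⟩⟩,
    fun _ m => ⟨m.1, m.2.trans_lt (τb _)⟩, (W _).2.1, key _⟩, fun t ht => key 0 (τ0 ▸ ht),
    fun n => (key n (right_mem_Icc.2 (aτ n).le)).trans (W n).2.2⟩

end Vale.Agent.P354CB92
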